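import Vale.Agent.P062.Snaky.Data.Table

/-!
Kernel check of part of the certificate.
-/

namespace Vale.Agent.P062.Snaky.Data

theorem check26 : cert.rangeCheck 832 32 = true := by decide +kernel

end Vale.Agent.P062.Snaky.Data
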