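import Vale.Agent.P062.Snaky.Data.Check0
import Vale.Agent.P062.Snaky.Data.Check1
import Vale.Agent.P062.Snaky.Data.Check2
import Vale.Agent.P062.Snaky.Data.Check3
import Vale.Agent.P062.Snaky.Data.Check4
import Vale.Agent.P062.Snaky.Data.Check5
import Vale.Agent.P062.Snaky.Data.Check6
import Vale.Agent.P062.Snaky.Data.Check7
import Vale.Agent.P062.Snaky.Data.Check8
import Vale.Agent.P062.Snaky.Data.Check9
import Vale.Agent.P062.Snaky.Data.Check10
import Vale.Agent.P062.Snaky.Data.Check11
import Vale.Agent.P062.Snaky.Data.Check12
import Vale.Agent.P062.Snaky.Data.Check13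
import Vale.Agent.P062.Snaky.Data.Check14
import Vale.Agent.P062.Snaky.Data.Check15
import Vale.Agent.P062.Snaky.Data.Check16
import Vale.Agent.P062.Snaky.Data.Check17
import Vale.Agent.P062.Snaky.Data.Check18
import Vale.Agent.P062.Snaky.Data.Check19
import Vale.Agent.P062.Snaky.Data.Check20
import Vale.Agent.P062.Snaky.Data.Check21
import Vale.Agent.P062.Snaky.Data.Check22
import Vale.Agent.P062.Snaky.Data.Check23
import Vale.Agent.P062.Snaky.Data.Check24
import Vale.Agent.P062.Snaky.Data.Check25
import Vale.Agent.P062.Snaky.Data.Check26
import Vale.Agent.P062.Snaky.Data.Check27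
import Vale.Agent.P062.Snaky.Data.Check28
import Vale.Agent.P062.Snaky.Data.Check29
import Vale.Agent.P062.Snaky.Data.Check30
import Vale.Agent.P062.Snaky.Data.Check31
import Vale.Agent.P062.Snaky.Data.Check32
import Vale.Agent.P062.Snaky.Data.Check33
import Vale.Agent.P062.Snaky.Data.Check34
import Vale.Agent.P062.Snaky.Data.Check35
import Vale.Agent.P062.Snaky.Data.Check36
import Vale.Agent.P062.Snaky.Data.Check37

/-!
The whole certificate is checked.
-/

namespace Vale.Agent.P062.Snaky.Data

theorem below0 : cert.CheckedBelow 32 :=
  Cert.checkedBelow_add cert.checkedBelow_zero check0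

theorem below1 : cert.CheckedBelow 64 :=
  Cert.checkedBelow_add below0 check1

theorem below2 : cert.CheckedBelow 96 :=
  Cert.checkedBelow_add below1 check2

theorem below3 : cert.CheckedBelow 128 :=
  Cert.checkedBelow_add below2 check3

theorem below4 : cert.CheckedBelow 160 :=
  Cert.checkedBelow_add below3 check4

theorem below5 : cert.CheckedBelow 192 :=
  Cert.checkedBelow_add below4 check5

theorem below6 : cert.CheckedBelow 224 :=
  Cert.checkedBelow_add below5 check6

theorem below7 : cert.CheckedBelow 256 :=
  Cert.checkedBelow_add below6 check7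

theorem below8 : cert.CheckedBelow 288 :=
  Cert.checkedBelow_add below7 check8

theorem below9 : cert.CheckedBelow 320 :=
  Cert.checkedBelow_add below8 check9

theorem below10 : cert.CheckedBelow 352 :=
  Cert.checkedBelow_add below9 check10

theorem below11 : cert.CheckedBelow 384 :=
  Cert.checkedBelow_add below10 check11

theorem below12 : cert.CheckedBelow 416 :=
  Cert.checkedBelow_add below11 check12

theorem below13 : cert.CheckedBelow 448 :=
  Cert.checkedBelow_add below12 check13

theorem below14 : cert.CheckedBelow 480 :=
  Cert.checkedBelow_add below13 check14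

theorem below15 : cert.CheckedBelow 512 :=
  Cert.checkedBelow_add below14 check15

theorem below16 : cert.CheckedBelow 544 :=
  Cert.checkedBelow_add below15 check16

theorem below17 : cert.CheckedBelow 576 :=
  Cert.checkedBelow_add below16 check17

theorem below18 : cert.CheckedBelow 608 :=
  Cert.checkedBelow_add below17 check18

theorem below19 : cert.CheckedBelow 640 :=
  Cert.checkedBelow_add below18 check19

theorem below20 : cert.CheckedBelow 672 :=
  Cert.checkedBelow_add below19 check20

theorem below21 : cert.CheckedBelow 704 :=
  Cert.checkedBelow_add below20 check21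

theorem below22 : cert.CheckedBelow 736 :=
  Cert.checkedBelow_add below21 check22

theorem below23 : cert.CheckedBelow 768 :=
  Cert.checkedBelow_add below22 check23

theorem below24 : cert.CheckedBelow 800 :=
  Cert.checkedBelow_add below23 check24

theorem below25 : cert.CheckedBelow 832 :=
  Cert.checkedBelow_add below24 check25

theorem below26 : cert.CheckedBelow 864 :=
  Cert.checkedBelow_add below25 check26

theorem below27 : cert.CheckedBelow 896 :=
  Cert.checkedBelow_add below26 check27

theorem below28 : cert.CheckedBelow 928 :=
  Cert.checkedBelow_add below27 check28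

theorem below29 : cert.CheckedBelow 960 :=
  Cert.checkedBelow_add below28 check29

theorem below30 : cert.CheckedBelow 992 :=
  Cert.checkedBelow_add below29 check30

theorem below31 : cert.CheckedBelow 1024 :=
  Cert.checkedBelow_add below30 check31

theorem below32 : cert.CheckedBelow 1056 :=
  Cert.checkedBelow_add below31 check32

theorem below33 : cert.CheckedBelow 1088 :=
  Cert.checkedBelow_add below32 check33

theorem below34 : cert.CheckedBelow 1120 :=
  Cert.checkedBelow_add below33 check34

theorem below35 : cert.CheckedBelow 1152 :=
  Cert.checkedBelow_add below34 check35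

theorem below36 : cert.CheckedBelow 1184 :=
  Cert.checkedBelow_add below35 check36

theorem below37 : cert.CheckedBelow 1198 :=
  Cert.checkedBelow_add below36 check37

def openings : List Opening := [⟨73, 60855⟩, ⟨73, 64618⟩, ⟨73, 71864⟩, ⟨73, 65860⟩, ⟨73, 69632⟩, ⟨85, 70503⟩, ⟨85, 76631⟩, ⟨73, 75327⟩]

def opening : Opening := ⟨99, 41255⟩

end Vale.Agent.P062.Snaky.Data
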