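import Vale.Agent.P062.Snaky.Data.Part0
import Vale.Agent.P062.Snaky.Data.Part1
import Vale.Agent.P062.Snaky.Data.Part2
import Vale.Agent.P062.Snaky.Data.Part3
import Vale.Agent.P062.Snaky.Data.Part4
import Vale.Agent.P062.Snaky.Data.Part5
import Vale.Agent.P062.Snaky.Data.Part6
import Vale.Agent.P062.Snaky.Data.Part7
import Vale.Agent.P062.Snaky.Data.Part8
import Vale.Agent.P062.Snaky.Data.Part9
import Vale.Agent.P062.Snaky.Data.Part10
import Vale.Agent.P062.Snaky.Data.Part11
import Vale.Agent.P062.Snaky.Data.Part12
import Vale.Agent.P062.Snaky.Data.Part13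
import Vale.Agent.P062.Snaky.Data.Part14
import Vale.Agent.P062.Snaky.Data.Part15
import Vale.Agent.P062.Snaky.Data.Part16
import Vale.Agent.P062.Snaky.Data.Part17
import Vale.Agent.P062.Snaky.Data.Part18

/-!
The assembled certificate.
-/

namespace Vale.Agent.P062.Snaky.Data

def copyTree : Tree CopyData :=
  (.node 400 (.node 200 (.node 100 (.node 50 (.node 25 (.node 12 (.node 6 (.node 3 (.node 1 (.leaf ⟨0x1e018000000000000000000000000000000, false, false, true, -5, 4⟩)
 (.node 2 (.leaf ⟨0x3c003000000000000000000000000000000, false, true, true, -1, 4⟩)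
 (.leaf ⟨0x300f000000000000000000000000000000, false, true, false, -2, 3⟩)
)) (.node 4 (.leaf ⟨0x1807800000000000000000000000000000000, false, true, false, -4, 4⟩)
 (.node 5 (.leaf ⟨0x300f000000000000000000000000000000000, false, true, false, -3, 4⟩)
 (.leaf ⟨0x3c03000000000000000000000000000000, false, false, true, -8, 4⟩)
))) (.node 9 (.node 7 (.leaf ⟨0x4002001001800800000000000000000000000000, true, false, true, -6, 6⟩)
 (.node 8 (.leaf ⟨0x3c03000000000000000000000000000, false, false, true, -7, 3⟩)
 (.leaf ⟨0x7806000000000000000000000000000000, false, false, true, -7, 4⟩)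
)) (.node 10 (.leaf ⟨0x1e001800000000000000000000000000000, false, true, true, -2, 4⟩)
 (.node 11 (.leaf ⟨0x1000c002001000800000000000000000000000, true, false, false, -4, 1⟩)
 (.leaf ⟨0x4006002001000800000000000000000000000, true, true, false, -4, 1⟩)
)))) (.node 18 (.node 15 (.node 13 (.leaf ⟨0x80060010008004000000000000000000000, true, false, false, 0, 0⟩)
 (.node 14 (.leaf ⟨0x1000c0020010008000000000000000000000000, true, false, false, 0, 1⟩)
 (.leaf ⟨0x40060020010008000000000000000000000000, true, true, false, 0, 1⟩)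
)) (.node 16 (.leaf ⟨0x20030010008004000000000000000000000, true, true, false, 0, 0⟩)
 (.node 17 (.leaf ⟨0x2003001000800400000000000000000000, true, true, false, -4, 0⟩)
 (.leaf ⟨0x4002001001800800000000000000000000000, true, false, true, -5, 5⟩)
))) (.node 21 (.node 19 (.leaf ⟨0xc03c000000000000000000000000000000000, false, true, false, -1, 4⟩)
 (.node 20 (.leaf ⟨0x78006000000000000000000000000000000, false, true, true, 0, 4⟩)
 (.leaf ⟨0x1e001800000000000000000000000000, false, true, true, -1, 3⟩)
)) (.node 23 (.node 22 (.leaf ⟨0x8006001000800400000000000000000000, true, false, false, -4, 0⟩)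
 (.leaf ⟨0x1000800400600200000000000000, true, false, true, -4, 2⟩)
) (.node 24 (.leaf ⟨0x2001000800c00400000000000000000, true, false, true, -4, 3⟩)
 (.leaf ⟨0x4003000800400200000000000000000, true, false, false, -4, -1⟩)
))))) (.node 37 (.node 31 (.node 28 (.node 26 (.leaf ⟨0x1001800800400200000000000000000, true, true, false, -4, -1⟩)
 (.node 27 (.leaf ⟨0x4002001001800800000000000000000000, true, false, true, -4, 4⟩)
 (.leaf ⟨0x8004002003001000000000000000000000000, true, false, true, -4, 5⟩)
)) (.node 29 (.leaf ⟨0x8004002003001000000000000000000000, true, false, true, -3, 4⟩)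
 (.node 30 (.leaf ⟨0x1807800000000000000000000000, false, true, false, -1, 1⟩)
 (.leaf ⟨0xf00c000000000000000000000000000000, false, false, true, -6, 4⟩)
))) (.node 34 (.node 32 (.leaf ⟨0x3000f000000000000000000000000000000000, false, false, false, -6, 4⟩)
 (.node 33 (.leaf ⟨0x78006000000000000000000000000000000000, false, true, true, -1, 5⟩)
 (.leaf ⟨0x40030008004002000000000000000000000000000, true, false, false, -3, 2⟩)
)) (.node 35 (.leaf ⟨0x10008004006002000000000000000000000000000, true, false, true, -4, 6⟩)
 (.node 36 (.leaf ⟨0x20018004002001000000000000000000000000000, true, false, false, -4, 2⟩)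
 (.leaf ⟨0x10008004003000800000000000000000000000000, true, true, true, -4, 6⟩)
)))) (.node 43 (.node 40 (.node 38 (.leaf ⟨0x2001000800600100000000000000000000, true, true, true, -5, 4⟩)
 (.node 39 (.leaf ⟨0x3000f00000000000000000000000, false, false, false, -7, 1⟩)
 (.leaf ⟨0x2003001000800400000000000000000000000, true, true, false, -5, 1⟩)
)) (.node 41 (.leaf ⟨0x4002001000c00200000000000000000000, true, true, true, -4, 4⟩)
 (.node 42 (.leaf ⟨0x2001000800600100000000000000000, true, true, true, -4, 3⟩)
 (.leaf ⟨0x8004002001800400000000000000000000000, true, true, true, -4, 5⟩)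
))) (.node 46 (.node 44 (.leaf ⟨0x2001800400200100000000000000000, true, false, false, -5, -1⟩)
 (.node 45 (.leaf ⟨0x4003000800400200000000000000000000, true, false, false, -5, 0⟩)
 (.leaf ⟨0x20018004002001000000000000000000000000, true, false, false, -3, 1⟩)
)) (.node 48 (.node 47 (.leaf ⟨0x2001000800c00400000000000000000000, true, false, true, -5, 4⟩)
 (.leaf ⟨0xf00c000000000000000000000000000000000, false, false, true, -7, 5⟩)
) (.node 49 (.leaf ⟨0x4006002001000800000000000000000000000000, true, true, false, -5, 2⟩)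
 (.leaf ⟨0x800c004002001000000000000000000000000000, true, true, false, -4, 2⟩)
)))))) (.node 75 (.node 62 (.node 56 (.node 53 (.node 51 (.leaf ⟨0x18007800000000000000000000000000000, false, false, false, -6, 3⟩)
 (.node 52 (.leaf ⟨0x1e00180000000000000000000, false, true, true, -3, 1⟩)
 (.leaf ⟨0x8004002001800400000000000000000000, true, true, true, -3, 4⟩)
)) (.node 54 (.leaf ⟨0x601e000000000000000000000000000000000, false, true, false, -2, 4⟩)
 (.node 55 (.leaf ⟨0x8004002003001000000000000000000000000000, true, false, true, -5, 6⟩)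
 (.leaf ⟨0x3000f000000000000000000000000000000, false, false, false, -5, 3⟩)
))) (.node 59 (.node 57 (.leaf ⟨0x1807800000000000000000000000000000, false, true, false, -3, 3⟩)
 (.node 58 (.leaf ⟨0x3c00300000000000000, false, true, true, 0, -1⟩)
 (.leaf ⟨0x7800600000000000000, false, true, true, 1, -1⟩)
)) (.node 60 (.leaf ⟨0xc03c00000000000000000, false, true, false, 0, -1⟩)
 (.node 61 (.leaf ⟨0x1807800000000000000000, false, true, false, 1, -1⟩)
 (.leaf ⟨0x4006002001000800000000000000000000, true, true, false, -3, 0⟩)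
)))) (.node 68 (.node 65 (.node 63 (.leaf ⟨0x300f00000000000000000000, false, true, false, -3, 0⟩)
 (.node 64 (.leaf ⟨0x601e00000000000000000000, false, true, false, -2, 0⟩)
 (.leaf ⟨0x3000f00000000000000000000, false, false, false, -6, 0⟩)
)) (.node 66 (.leaf ⟨0x6001e00000000000000000000, false, false, false, -5, 0⟩)
 (.node 67 (.leaf ⟨0x1000c002001000800000000000000000000, true, false, false, -3, 0⟩)
 (.leaf ⟨0x1001800800400200000000000000000000, true, true, false, -5, 0⟩)
))) (.node 71 (.node 69 (.leaf ⟨0xf000c00000000000000000000, false, true, true, 0, 1⟩)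
 (.node 70 (.leaf ⟨0x4002001000c00200000000000000000, true, true, true, -3, 3⟩)
 (.leaf ⟨0x2003001000800400000000000000000, true, true, false, -3, -1⟩)
)) (.node 73 (.node 72 (.leaf ⟨0x2001800400200100000000000000, true, false, false, -4, -2⟩)
 (.leaf ⟨0x7800600000000000000000000, false, true, true, -1, 1⟩)
) (.node 74 (.leaf ⟨0x800c00400200100000000000000, true, true, false, -4, -2⟩)
 (.leaf ⟨0x10008004006002000000000000000, true, false, true, 0, 2⟩)
))))) (.node 87 (.node 81 (.node 78 (.node 76 (.leaf ⟨0x1000800400600200000000000000000, true, false, true, -5, 3⟩)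
 (.node 77 (.leaf ⟨0x1000800400300080000000000000000, true, true, true, -5, 3⟩)
 (.leaf ⟨0x800c00400200100000000000000000, true, true, false, -5, -1⟩)
)) (.node 79 (.leaf ⟨0x4002001000c0020000000000000, true, true, true, -6, 2⟩)
 (.node 80 (.leaf ⟨0x800400200180040000000000000000, true, true, true, -6, 3⟩)
 (.leaf ⟨0x800600100080040000000000000, true, false, false, -6, -2⟩)
))) (.node 84 (.node 82 (.leaf ⟨0x2001000800c00400000000000000000000000, true, false, true, -6, 5⟩)
 (.node 83 (.leaf ⟨0x4002001000c00200000000000000000000000, true, true, true, -5, 5⟩)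
 (.leaf ⟨0x4003000800400200000000000000000000000, true, false, false, -6, 1⟩)
)) (.node 85 (.leaf ⟨0x1000800400600200000000000000000000, true, false, true, -6, 4⟩)
 (.node 86 (.leaf ⟨0xc03c00000000000000000000000000, false, true, false, -3, 2⟩)
 (.leaf ⟨0x3c00300000000000000000000000, false, true, true, -3, 2⟩)
)))) (.node 93 (.node 90 (.node 88 (.leaf ⟨0x1001800800400200000000000000000000000, true, true, false, -6, 1⟩)
 (.node 89 (.leaf ⟨0x2003001000800400000000000000000000000000, true, true, false, -6, 2⟩)
 (.leaf ⟨0x8006001000800400000000000000000000000000, true, false, false, -6, 2⟩)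
)) (.node 91 (.leaf ⟨0x800400200300100000000000000000, true, false, true, -6, 3⟩)
 (.node 92 (.leaf ⟨0x1000c00200100080000000000000000, true, false, false, -6, -1⟩)
 (.leaf ⟨0x2001800400200100000000000000000000, true, false, false, -6, 0⟩)
))) (.node 96 (.node 94 (.leaf ⟨0xc003c00000000000000000000000000, false, false, false, -6, 2⟩)
 (.node 95 (.leaf ⟨0x10008004003000800000000000000000000000, true, true, true, -3, 5⟩)
 (.leaf ⟨0x6001e00000000000000000000000000, false, false, false, -7, 2⟩)
)) (.node 98 (.node 97 (.leaf ⟨0x1e00180000000000000000000000, false, true, true, -4, 2⟩)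
 (.leaf ⟨0x3c03000000000000000000000000, false, false, true, -6, 2⟩)
) (.node 99 (.leaf ⟨0x1e01800000000000000000000, false, false, true, -6, 1⟩)
 (.leaf ⟨0x2001000800600100000000000000, true, true, true, -3, 2⟩)
))))))) (.node 150 (.node 125 (.node 112 (.node 106 (.node 103 (.node 101 (.leaf ⟨0x1001800800400200000000000000, true, true, false, -3, -2⟩)
 (.node 102 (.leaf ⟨0x1e01800000000000000000000000, false, false, true, -7, 2⟩)
 (.leaf ⟨0x601e00000000000000000000000000, false, true, false, -4, 2⟩)
)) (.node 104 (.leaf ⟨0x1e01800000000000000000, false, false, true, -5, 0⟩)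
 (.node 105 (.leaf ⟨0x4002001001800800000000000000000, true, false, true, -3, 3⟩)
 (.leaf ⟨0x800c004002001000000000000000000000000, true, true, false, -3, 1⟩)
))) (.node 109 (.node 107 (.leaf ⟨0x800c004002001000000000000000000000, true, true, false, -2, 0⟩)
 (.node 108 (.leaf ⟨0x20010008006001000000000000000000000000, true, true, true, -2, 5⟩)
 (.leaf ⟨0x80060010008004000000000000000000000000000, true, false, false, -2, 2⟩)
)) (.node 110 (.leaf ⟨0x40030008004002000000000000000000000000, true, false, false, -2, 1⟩)
 (.node 111 (.leaf ⟨0x10018008004002000000000000000000000000, true, true, false, -2, 1⟩)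
 (.leaf ⟨0x1000c00200100080000000000000, true, false, false, -5, -2⟩)
)))) (.node 118 (.node 115 (.node 113 (.leaf ⟨0x800400200300100000000000000, true, false, true, -5, 2⟩)
 (.node 114 (.leaf ⟨0x3c00300000000000000000000, false, true, true, -2, 1⟩)
 (.leaf ⟨0x1807800000000000000000000000000, false, true, false, -2, 2⟩)
)) (.node 116 (.leaf ⟨0x7800600000000000000000000000, false, true, true, -2, 2⟩)
 (.node 117 (.leaf ⟨0x18007800000000000000000000000000, false, false, false, -5, 2⟩)
 (.leaf ⟨0x7806000000000000000000000000, false, false, true, -5, 2⟩)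
))) (.node 121 (.node 119 (.leaf ⟨0x8006001000800400000000000000000000000, true, false, false, -5, 1⟩)
 (.node 120 (.leaf ⟨0x1000c002001000800000000000000000000000000, true, false, false, -5, 2⟩)
 (.leaf ⟨0x4002001000c00200000000000000, true, true, true, -2, 2⟩)
)) (.node 123 (.node 122 (.leaf ⟨0x4006002001000800000000000000000, true, true, false, -2, -1⟩)
 (.leaf ⟨0x800400200180040000000000000, true, true, true, -5, 2⟩)
) (.node 124 (.leaf ⟨0x1e00180000000000000000, false, true, true, -2, 0⟩)
 (.leaf ⟨0x8006001000800400000000000000000, true, false, false, -3, -1⟩)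
))))) (.node 137 (.node 131 (.node 128 (.node 126 (.leaf ⟨0x10008004003000800000000000000000000, true, true, true, -2, 4⟩)
 (.node 127 (.leaf ⟨0x8004002001800400000000000000000, true, true, true, -2, 3⟩)
 (.leaf ⟨0x4002001000c002000000000000000000000000000, true, true, true, -2, 6⟩)
)) (.node 129 (.leaf ⟨0x601e00000000000000000, false, true, false, -1, -1⟩)
 (.node 130 (.leaf ⟨0xc003c0000000000000000000, false, false, false, -8, 0⟩)
 (.leaf ⟨0x1800780000000000000000000, false, false, false, -7, 0⟩)
))) (.node 134 (.node 132 (.leaf ⟨0x400200100180080000000000000, true, false, true, -6, 2⟩)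
 (.node 133 (.leaf ⟨0xf00c00000000000000000000000, false, false, true, -8, 2⟩)
 (.leaf ⟨0x601e00000000000000000000000, false, true, false, -3, 1⟩)
)) (.node 135 (.leaf ⟨0xf000c0000000000000000, false, true, true, -3, 0⟩)
 (.node 136 (.leaf ⟨0x800c00400200100000000000, true, true, false, -3, -3⟩)
 (.leaf ⟨0x400600200100080000000000, true, true, false, -4, -3⟩)
)))) (.node 143 (.node 140 (.node 138 (.leaf ⟨0x6001e0000000000000000, false, false, false, -8, -1⟩)
 (.node 139 (.leaf ⟨0xc03c0000000000000000, false, true, false, -4, -1⟩)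
 (.leaf ⟨0x180780000000000000000, false, true, false, -3, -1⟩)
)) (.node 141 (.leaf ⟨0x780600000000000000000000, false, false, true, -8, 1⟩)
 (.node 142 (.leaf ⟨0x1800780000000000000000000000, false, false, false, -8, 1⟩)
 (.leaf ⟨0x400600200100080000000000000, true, true, false, -5, -2⟩)
))) (.node 146 (.node 144 (.leaf ⟨0x8004002001800400000000000000000000000000, true, true, true, -5, 6⟩)
 (.node 145 (.leaf ⟨0x20030010008004000000000000000000000000000, true, true, false, -2, 2⟩)
 (.leaf ⟨0x3000f00000000000000000000000000, false, false, false, -8, 2⟩)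
)) (.node 148 (.node 147 (.leaf ⟨0x200300100080040000000000, true, true, false, -5, -3⟩)
 (.leaf ⟨0x400200100180080000000000, true, false, true, -5, 1⟩)
) (.node 149 (.leaf ⟨0xc003c0000000000000000, false, false, false, -7, -1⟩)
 (.leaf ⟨0x300f00000000000000000, false, true, false, -2, -1⟩)
)))))) (.node 175 (.node 162 (.node 156 (.node 153 (.node 151 (.leaf ⟨0x1e01800000000000000000000000000, false, false, true, -8, 3⟩)
 (.node 152 (.leaf ⟨0x10008004006002000000000000000000000000, true, false, true, -3, 5⟩)
 (.leaf ⟨0x6001e000000000000000000000000000000000, false, false, false, -5, 4⟩)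
)) (.node 154 (.leaf ⟨0x1000800400300080000000000000, true, true, true, -4, 2⟩)
 (.node 155 (.leaf ⟨0xc03c00000000000000000000000, false, true, false, -2, 1⟩)
 (.leaf ⟨0x20010008006001000000000000000000000000000, true, true, true, -3, 6⟩)
))) (.node 159 (.node 157 (.leaf ⟨0x6001e00000000000000000000000, false, false, false, -6, 1⟩)
 (.node 158 (.leaf ⟨0xf000c000000000000000000000000000000000, false, true, true, 0, 5⟩)
 (.leaf ⟨0x18078000000000000000000000000000000000, false, true, false, 0, 4⟩)
)) (.node 160 (.leaf ⟨0x10018008004002000000000000000000000000000, true, true, false, -3, 2⟩)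
 (.node 161 (.leaf ⟨0x1e018000000000000000000000000000000000, false, false, true, -6, 5⟩)
 (.leaf ⟨0x2001000800c004000000000000000000000000000, true, false, true, -3, 6⟩)
)))) (.node 168 (.node 165 (.node 163 (.leaf ⟨0xf000c000000000000000000000000000000, false, true, true, 1, 4⟩)
 (.node 164 (.leaf ⟨0x3c003000000000000000000000000000, false, true, true, 0, 3⟩)
 (.leaf ⟨0x6001e000000000000000000000000000000, false, false, false, -4, 3⟩)
)) (.node 166 (.leaf ⟨0x7806000000000000000000000000000, false, false, true, -6, 3⟩)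
 (.node 167 (.leaf ⟨0x601e000000000000000000000000000000, false, true, false, -1, 3⟩)
 (.leaf ⟨0x2001000800c00400000000000000, true, false, true, -3, 2⟩)
))) (.node 171 (.node 169 (.leaf ⟨0x2003001000800400000000000000, true, true, false, -2, -2⟩)
 (.node 170 (.leaf ⟨0x300f000000000000000000000000, false, true, false, 0, 1⟩)
 (.leaf ⟨0x4003000800400200000000000000, true, false, false, -3, -2⟩)
)) (.node 173 (.node 172 (.leaf ⟨0xf000c00000000000000000000000000000, false, true, true, -3, 4⟩)
 (.leaf ⟨0xc003c00000000000000000000000000000000, false, false, false, -8, 4⟩)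
) (.node 174 (.leaf ⟨0x1e001800000000000000000000000000000000, false, true, true, -3, 5⟩)
 (.leaf ⟨0xc03c000000000000000000000000000000000000, false, true, false, -2, 5⟩)
))))) (.node 187 (.node 181 (.node 178 (.node 176 (.leaf ⟨0x3c003000000000000000000000000000000000, false, true, true, -2, 5⟩)
 (.node 177 (.leaf ⟨0x180078000000000000000000000000000000000, false, false, false, -3, 4⟩)
 (.leaf ⟨0x78060000000000000000000000000000000, false, false, true, -3, 4⟩)
)) (.node 179 (.leaf ⟨0xc003c000000000000000000000000000000000, false, false, false, -4, 4⟩)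
 (.node 180 (.leaf ⟨0x18078000000000000000000000000000000, false, true, false, 1, 3⟩)
 (.leaf ⟨0x20018004002001000000000000000000000, true, false, false, -2, 0⟩)
))) (.node 184 (.node 182 (.leaf ⟨0x4002001000c0020000000000, true, true, true, -5, 1⟩)
 (.node 183 (.leaf ⟨0x1000800400300080000000000, true, true, true, -3, 1⟩)
 (.leaf ⟨0x10008004003000800000000000000, true, true, true, 0, 2⟩)
)) (.node 185 (.leaf ⟨0x601e000000000000000000000000000000000000, false, true, false, -3, 5⟩)
 (.node 186 (.leaf ⟨0x3c030000000000000000000000000000000000, false, false, true, -5, 5⟩)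
 (.leaf ⟨0x78060000000000000000000000000000000000, false, false, true, -4, 5⟩)
)))) (.node 193 (.node 190 (.node 188 (.leaf ⟨0xc003c000000000000000000000000000000, false, false, false, -3, 3⟩)
 (.node 189 (.leaf ⟨0xc03c000000000000000000000000000000, false, true, false, 0, 3⟩)
 (.leaf ⟨0x10018008004002000000000000000000, true, true, false, 0, -1⟩)
)) (.node 191 (.leaf ⟨0xf000c00000000000000000000000, false, true, true, -1, 2⟩)
 (.node 192 (.leaf ⟨0x1e001800000000000000000000000, false, true, true, 0, 2⟩)
 (.leaf ⟨0x300f000000000000000000000000000, false, true, false, -1, 2⟩)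
))) (.node 196 (.node 194 (.leaf ⟨0x601e000000000000000000000000000, false, true, false, 0, 2⟩)
 (.node 195 (.leaf ⟨0xf00c000000000000000000000000, false, false, true, -4, 2⟩)
 (.leaf ⟨0x1e018000000000000000000000000, false, false, true, -3, 2⟩)
)) (.node 198 (.node 197 (.leaf ⟨0x601e000000000000000000000000, false, true, false, 1, 1⟩)
 (.leaf ⟨0x800400200300100000000, true, false, true, -3, 0⟩)
) (.node 199 (.leaf ⟨0x1000800400600200000000000, true, false, true, -3, 1⟩)
 (.leaf ⟨0x800400200180040000000, true, true, true, -3, 0⟩)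
)))))))) (.node 300 (.node 250 (.node 225 (.node 212 (.node 206 (.node 203 (.node 201 (.leaf ⟨0x40020010018008000000000000, true, false, true, 3, 1⟩)
 (.node 202 (.leaf ⟨0x80040020030010000000000000000, true, false, true, 3, 2⟩)
 (.leaf ⟨0x1000c0020010008000000000000000, true, false, false, 3, -2⟩)
)) (.node 204 (.leaf ⟨0x200180040020010000000000000000000, true, false, false, 3, -1⟩)
 (.node 205 (.leaf ⟨0x100080040060020000000000000000000, true, false, true, 3, 3⟩)
 (.leaf ⟨0x800c0040020010000000000000000000, true, true, false, 3, -1⟩)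
))) (.node 209 (.node 207 (.leaf ⟨0x100180080040020000000000000000000000, true, true, false, 3, 0⟩)
 (.node 208 (.leaf ⟨0x400300080040020000000000000000000000, true, false, false, 3, 0⟩)
 (.leaf ⟨0x4002001000c002000000000000, true, true, true, 3, 1⟩)
)) (.node 210 (.leaf ⟨0xf00c000000000000000, false, false, true, -1, -1⟩)
 (.node 211 (.leaf ⟨0x1e018000000000000000, false, false, true, 0, -1⟩)
 (.leaf ⟨0x20010008006001000000000, true, true, true, 3, 0⟩)
)))) (.node 218 (.node 215 (.node 213 (.leaf ⟨0x2001000800c004000000000, true, false, true, 3, 0⟩)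
 (.node 214 (.leaf ⟨0x6001e000000000000000000, false, false, false, 0, -1⟩)
 (.leaf ⟨0x80060010008004000000000000, true, false, false, 3, -3⟩)
)) (.node 216 (.leaf ⟨0x80040020018004000000000000000, true, true, true, 3, 2⟩)
 (.node 217 (.leaf ⟨0xc003c000000000000000000000000, false, false, false, -1, 1⟩)
 (.leaf ⟨0x180078000000000000000000000000, false, false, false, 0, 1⟩)
))) (.node 221 (.node 219 (.leaf ⟨0x78060000000000000000000000, false, false, true, 0, 1⟩)
 (.node 220 (.leaf ⟨0x40060020010008000000000000000, true, true, false, 3, -2⟩)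
 (.leaf ⟨0x1e001800000000000000000000, false, true, true, 1, 1⟩)
)) (.node 223 (.node 222 (.leaf ⟨0x200180040020010000000000000000000000000000, true, false, false, 0, 2⟩)
 (.leaf ⟨0x800c0040020010000000000000000000000000000, true, true, false, 0, 2⟩)
) (.node 224 (.leaf ⟨0x601e0000000000000000000000000000000, false, true, false, 3, 3⟩)
 (.leaf ⟨0x1e0180000000000000000000000000000, false, false, true, 0, 3⟩)
))))) (.node 237 (.node 231 (.node 228 (.node 226 (.leaf ⟨0x6001e0000000000000000000000000000000, false, false, false, 0, 3⟩)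
 (.node 227 (.leaf ⟨0x2001000800c0040000000000000000000000, true, false, true, 3, 4⟩)
 (.leaf ⟨0x200300100080040000, true, true, false, -3, -5⟩)
)) (.node 229 (.leaf ⟨0x400600200100080000000, true, true, false, -3, -4⟩)
 (.node 230 (.leaf ⟨0x3c030000000000000000000000, false, false, true, -1, 1⟩)
 (.leaf ⟨0x800600100080040000000000000000000000000, true, false, false, 3, 1⟩)
))) (.node 234 (.node 232 (.leaf ⟨0x200100080060010000000000000000000000, true, true, true, 3, 4⟩)
 (.node 233 (.leaf ⟨0x20030010008004000000000000, true, true, false, 3, -3⟩)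
 (.leaf ⟨0x100080040060020000000000000000000000, true, false, true, 2, 4⟩)
)) (.node 235 (.leaf ⟨0x3000f000000000000000000, false, false, false, -1, -1⟩)
 (.node 236 (.leaf ⟨0x200300100080040000000000000000000000000, true, true, false, 3, 1⟩)
 (.leaf ⟨0xf000c000000000000000000000000, false, true, true, 3, 2⟩)
)))) (.node 243 (.node 240 (.node 238 (.leaf ⟨0x6001e000000000000000000000000, false, false, false, -2, 1⟩)
 (.node 239 (.leaf ⟨0x3000f000000000000000000000000, false, false, false, -3, 1⟩)
 (.leaf ⟨0x800400200300100000000000, true, false, true, -4, 1⟩)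
)) (.node 241 (.leaf ⟨0x400300080040020000, true, false, false, -4, -5⟩)
 (.node 242 (.leaf ⟨0x800600100080040000000, true, false, false, -4, -4⟩)
 (.leaf ⟨0x40060020010008000000000000, true, true, false, 4, -3⟩)
))) (.node 246 (.node 244 (.leaf ⟨0x80040020030010000000000000000000000000, true, false, true, 0, 5⟩)
 (.node 245 (.leaf ⟨0x40030008004002000000000000000000, true, false, false, 0, -1⟩)
 (.leaf ⟨0x40030008004002000000000, true, false, false, 3, -4⟩)
)) (.node 248 (.node 247 (.leaf ⟨0x78060000000000000000000000000, false, false, true, -1, 2⟩)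
 (.leaf ⟨0xf00c0000000000000000000000000, false, false, true, 0, 2⟩)
) (.node 249 (.leaf ⟨0x300f0000000000000000000000000, false, true, false, 4, 1⟩)
 (.leaf ⟨0x18078000000000000000000000000, false, true, false, 3, 1⟩)
)))))) (.node 275 (.node 262 (.node 256 (.node 253 (.node 251 (.leaf ⟨0x20018004002001000000, true, false, false, 3, -5⟩)
 (.node 252 (.leaf ⟨0x1e0018000000000000000000000000000, false, true, true, 3, 3⟩)
 (.leaf ⟨0x3c030000000000000000000000000, false, false, true, -2, 2⟩)
)) (.node 254 (.leaf ⟨0x180078000000000000000000000000000, false, false, false, -1, 2⟩)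
 (.node 255 (.leaf ⟨0x3000f0000000000000000000000000000, false, false, false, 0, 2⟩)
 (.leaf ⟨0x1e0018000000000000000000000000, false, true, true, 4, 2⟩)
))) (.node 259 (.node 257 (.leaf ⟨0xc03c000000000000000000000000000, false, true, false, 1, 2⟩)
 (.node 258 (.leaf ⟨0x78006000000000000000000000000, false, true, true, 2, 2⟩)
 (.leaf ⟨0x3c003000000000000000000000000, false, true, true, 1, 2⟩)
)) (.node 260 (.leaf ⟨0x80040020030010000000000000000000, true, false, true, 2, 3⟩)
 (.node 261 (.leaf ⟨0x1e00180000000000000, false, true, true, -1, -1⟩)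
 (.leaf ⟨0x200180040020010000000000000000000000, true, false, false, 2, 0⟩)
)))) (.node 268 (.node 265 (.node 263 (.leaf ⟨0xc03c000000000000000000000000, false, true, false, 2, 1⟩)
 (.node 264 (.leaf ⟨0x8006001000800400000000000000, true, false, false, -2, -2⟩)
 (.leaf ⟨0x400300080040020000000000000000000000000, true, false, false, 2, 1⟩)
)) (.node 266 (.leaf ⟨0xc003c00000000000000000000000, false, false, false, -5, 1⟩)
 (.node 267 (.leaf ⟨0x3c030000000000000000000000000000, false, false, true, -3, 3⟩)
 (.leaf ⟨0x80040020018004, true, true, true, -5, -2⟩)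
))) (.node 271 (.node 269 (.leaf ⟨0x1e0018000, false, true, true, -2, -4⟩)
 (.node 270 (.leaf ⟨0x3c0300000000, false, false, true, -5, -3⟩)
 (.leaf ⟨0x780060000000, false, true, true, -1, -3⟩)
)) (.node 273 (.node 272 (.leaf ⟨0x1000c0020010008, true, false, false, -5, -6⟩)
 (.leaf ⟨0x3c0030000000, false, true, true, -2, -3⟩)
) (.node 274 (.leaf ⟨0x100080040030008000, true, true, true, -5, -1⟩)
 (.leaf ⟨0x180078000000, false, false, false, -7, -4⟩)
))))) (.node 287 (.node 281 (.node 278 (.node 276 (.leaf ⟨0x2001000800c0040000000, true, false, true, -5, 0⟩)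
 (.node 277 (.leaf ⟨0x80060010008004, true, false, false, -6, -6⟩)
 (.leaf ⟨0x200100080060010000000, true, true, true, -5, 0⟩)
)) (.node 279 (.leaf ⟨0x1e0018000000, false, true, true, -3, -3⟩)
 (.node 280 (.leaf ⟨0x3000f0000000000, false, false, false, -7, -3⟩)
 (.leaf ⟨0x1e0180000000, false, false, true, -6, -3⟩)
))) (.node 284 (.node 282 (.leaf ⟨0x180780000000000, false, true, false, -1, -3⟩)
 (.node 283 (.leaf ⟨0xf00c0, false, false, true, -5, -5⟩)
 (.leaf ⟨0x2001000800c0040, true, false, true, -3, -2⟩)
)) (.node 285 (.leaf ⟨0x601e0000, false, true, false, -1, -5⟩)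
 (.node 286 (.leaf ⟨0x300f0000, false, true, false, -2, -5⟩)
 (.leaf ⟨0x100080040030008, true, true, true, -4, -2⟩)
)))) (.node 293 (.node 290 (.node 288 (.leaf ⟨0x100080040060020, true, false, true, -4, -2⟩)
 (.node 289 (.leaf ⟨0x200180040020010, true, false, false, -4, -6⟩)
 (.leaf ⟨0x100180080040020000, true, true, false, -4, -5⟩)
)) (.node 291 (.leaf ⟨0x180780000000, false, true, false, 0, -4⟩)
 (.node 292 (.leaf ⟨0xc03c0000000, false, true, false, -1, -4⟩)
 (.leaf ⟨0x400200100180080000, true, false, true, -3, -1⟩)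
))) (.node 296 (.node 294 (.leaf ⟨0x1000c00200100080000000, true, false, false, -3, -4⟩)
 (.node 295 (.leaf ⟨0x300f0000000, false, true, false, -3, -4⟩)
 (.leaf ⟨0x601e0000000, false, true, false, -2, -4⟩)
)) (.node 298 (.node 297 (.leaf ⟨0x3000f0000000, false, false, false, -6, -4⟩)
 (.leaf ⟨0x1e0180000, false, false, true, -5, -4⟩)
) (.node 299 (.leaf ⟨0x3c0300000, false, false, true, -4, -4⟩)
 (.leaf ⟨0x6001e0000000, false, false, false, -5, -4⟩)
))))))) (.node 350 (.node 325 (.node 312 (.node 306 (.node 303 (.node 301 (.leaf ⟨0xc003c0000000, false, false, false, -4, -4⟩)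
 (.node 302 (.leaf ⟨0x2001000800c0040000, true, false, true, -4, -1⟩)
 (.leaf ⟨0x200100080060010000, true, true, true, -4, -1⟩)
)) (.node 304 (.leaf ⟨0x400200100180080000000, true, false, true, -4, 0⟩)
 (.node 305 (.leaf ⟨0x1000c00200100080000000000, true, false, false, -4, -3⟩)
 (.leaf ⟨0x4002001000c0020000000, true, true, true, -4, 0⟩)
))) (.node 309 (.node 307 (.leaf ⟨0x800400200180040000000000, true, true, true, -4, 1⟩)
 (.node 308 (.leaf ⟨0xf00c0000000, false, false, true, -7, -3⟩)
 (.leaf ⟨0x3c0300000000000000, false, false, true, -7, -1⟩)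
)) (.node 310 (.leaf ⟨0x100180080040020000000, true, true, false, -5, -4⟩)
 (.node 311 (.leaf ⟨0x200300100080040000000, true, true, false, -4, -4⟩)
 (.leaf ⟨0xc03c0000, false, true, false, 0, -5⟩)
)))) (.node 318 (.node 315 (.node 313 (.leaf ⟨0x200100080060010, true, true, true, -3, -2⟩)
 (.node 314 (.leaf ⟨0x800c0040020010, true, true, false, -4, -6⟩)
 (.leaf ⟨0x180078000, false, false, false, -6, -5⟩)
)) (.node 316 (.leaf ⟨0x780060000, false, true, true, 0, -4⟩)
 (.node 317 (.leaf ⟨0x200300100080040, true, true, false, -2, -6⟩)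
 (.leaf ⟨0xf00c00000000000000000, false, false, true, -6, 0⟩)
))) (.node 321 (.node 319 (.leaf ⟨0x780600000000000000000, false, false, true, -7, 0⟩)
 (.node 320 (.leaf ⟨0x2001800400200100000000000, true, false, false, -3, -3⟩)
 (.leaf ⟨0x4002001000c0020000, true, true, true, -3, -1⟩)
)) (.node 323 (.node 322 (.leaf ⟨0x20018004002001000000000000000, true, false, false, 0, -2⟩)
 (.leaf ⟨0x800c004002001000000000000000, true, true, false, 0, -2⟩)
) (.node 324 (.leaf ⟨0x800c0040020010000, true, true, false, -5, -5⟩)
 (.leaf ⟨0x100080040060020000000, true, false, true, -6, 0⟩)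
))))) (.node 337 (.node 331 (.node 328 (.node 326 (.leaf ⟨0x800600100080040000000000, true, false, false, -5, -3⟩)
 (.node 327 (.leaf ⟨0x400300080040020000000, true, false, false, -5, -4⟩)
 (.leaf ⟨0x100180080040020000000000, true, true, false, -6, -3⟩)
)) (.node 329 (.leaf ⟨0x200300100080040000000000000, true, true, false, -6, -2⟩)
 (.node 330 (.leaf ⟨0x1000c0020010008000, true, false, false, -6, -5⟩)
 (.leaf ⟨0x80040020030010000, true, false, true, -6, -1⟩)
))) (.node 334 (.node 332 (.leaf ⟨0x200180040020010000000, true, false, false, -6, -4⟩)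
 (.node 333 (.leaf ⟨0x3c0030000000000, false, true, true, -3, -2⟩)
 (.leaf ⟨0xc03c0000000000000, false, true, false, -3, -2⟩)
)) (.node 335 (.leaf ⟨0x1e0180000000000, false, false, true, -7, -2⟩)
 (.node 336 (.leaf ⟨0x3c0300000000000, false, false, true, -6, -2⟩)
 (.leaf ⟨0x4002001000c002, true, true, true, -6, -2⟩)
)))) (.node 343 (.node 340 (.node 338 (.leaf ⟨0x80040020018004000, true, true, true, -6, -1⟩)
 (.node 339 (.leaf ⟨0x400300080040020000000000, true, false, false, -6, -3⟩)
 (.leaf ⟨0x2001000800c0040000000000, true, false, true, -6, 1⟩)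
)) (.node 341 (.leaf ⟨0x40020010018008, true, false, true, -6, -2⟩)
 (.node 342 (.leaf ⟨0x601e0000000000000, false, true, false, -4, -2⟩)
 (.leaf ⟨0x3c0300000000000000000, false, false, true, -8, 0⟩)
))) (.node 346 (.node 344 (.leaf ⟨0x1800780000000000000000, false, false, false, -6, -1⟩)
 (.node 345 (.leaf ⟨0x6001e0000000000000, false, false, false, -7, -2⟩)
 (.leaf ⟨0xc003c0000000000000, false, false, false, -6, -2⟩)
)) (.node 348 (.node 347 (.leaf ⟨0x1e0018000000000, false, true, true, -4, -2⟩)
 (.leaf ⟨0x601e0000000000, false, true, false, -3, -3⟩)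
) (.node 349 (.leaf ⟨0x1e0180000000000000, false, false, true, -8, -1⟩)
 (.leaf ⟨0x80040020030010, true, false, true, -5, -2⟩)
)))))) (.node 375 (.node 362 (.node 356 (.node 353 (.node 351 (.leaf ⟨0x100080040060020000, true, false, true, -5, -1⟩)
 (.node 352 (.leaf ⟨0xc003c000000, false, false, false, -8, -4⟩)
 (.leaf ⟨0x780060000000000, false, true, true, -2, -2⟩)
)) (.node 354 (.leaf ⟨0x180780000000000000, false, true, false, -2, -2⟩)
 (.node 355 (.leaf ⟨0x78060, false, false, true, -6, -5⟩)
 (.leaf ⟨0x3c030, false, false, true, -7, -5⟩)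
))) (.node 359 (.node 357 (.leaf ⟨0x78006, false, true, true, -3, -5⟩)
 (.node 358 (.leaf ⟨0xf000c, false, true, true, -2, -5⟩)
 (.leaf ⟨0x3000f0000, false, false, false, -5, -5⟩)
)) (.node 360 (.leaf ⟨0x40060020010008, true, true, false, -5, -6⟩)
 (.node 361 (.leaf ⟨0xf00c0000000000, false, false, true, -8, -2⟩)
 (.leaf ⟨0x200180040020010000, true, false, false, -5, -5⟩)
)))) (.node 368 (.node 365 (.node 363 (.leaf ⟨0x3000f0000000000000, false, false, false, -8, -2⟩)
 (.node 364 (.leaf ⟨0x180078000000000, false, false, false, -8, -3⟩)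
 (.leaf ⟨0x1800780000000000000, false, false, false, -5, -2⟩)
)) (.node 366 (.leaf ⟨0xf00c00000000000000000000, false, false, true, -7, 1⟩)
 (.node 367 (.leaf ⟨0xf000c000, false, true, true, -3, -4⟩)
 (.leaf ⟨0x100180080040020, true, true, false, -3, -6⟩)
))) (.node 371 (.node 369 (.leaf ⟨0x780600000000000, false, false, true, -5, -2⟩)
 (.node 370 (.leaf ⟨0x6001e0000000000, false, false, false, -6, -3⟩)
 (.leaf ⟨0x2001000800600100000000000, true, true, true, -2, 1⟩)
)) (.node 373 (.node 372 (.leaf ⟨0x4002001001800800000000, true, false, true, 0, 0⟩)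
 (.leaf ⟨0x4002001000c00200000000, true, true, true, 0, 0⟩)
) (.node 374 (.leaf ⟨0xf00c0000, false, false, true, -6, -4⟩)
 (.leaf ⟨0x1001800800400200000000000, true, true, false, -2, -3⟩)
))))) (.node 387 (.node 381 (.node 378 (.node 376 (.leaf ⟨0x4002001000c0020, true, true, true, -2, -2⟩)
 (.node 377 (.leaf ⟨0x800400200180040000, true, true, true, -2, -1⟩)
 (.leaf ⟨0x400200100180080, true, false, true, -2, -2⟩)
)) (.node 379 (.leaf ⟨0x800400200300100000, true, false, true, -2, -1⟩)
 (.node 380 (.leaf ⟨0x800c00400200100000000, true, true, false, -2, -4⟩)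
 (.leaf ⟨0x400600200100080000, true, true, false, -2, -5⟩)
))) (.node 384 (.node 382 (.leaf ⟨0x1000800400300080000000, true, true, true, -2, 0⟩)
 (.node 383 (.leaf ⟨0x800600100080040000, true, false, false, -3, -5⟩)
 (.leaf ⟨0x780060000000000000000, false, true, true, -4, 0⟩)
)) (.node 385 (.leaf ⟨0xc03c0000000000, false, true, false, -2, -3⟩)
 (.node 386 (.leaf ⟨0x180780000, false, true, false, 1, -5⟩)
 (.leaf ⟨0xf000c0000, false, true, true, 1, -4⟩)
)))) (.node 393 (.node 390 (.node 388 (.leaf ⟨0xc003c000, false, false, false, -7, -5⟩)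
 (.node 389 (.leaf ⟨0x400300080040020, true, false, false, -3, -6⟩)
 (.leaf ⟨0x2001000800600100000, true, true, true, 0, -1⟩)
)) (.node 391 (.leaf ⟨0x300f00000000, false, true, false, 1, -4⟩)
 (.node 392 (.leaf ⟨0x2001000800c00400000, true, false, true, 0, -1⟩)
 (.leaf ⟨0x300f00000000000, false, true, false, 0, -3⟩)
))) (.node 396 (.node 394 (.leaf ⟨0xf000c0000000, false, true, true, 0, -3⟩)
 (.node 395 (.leaf ⟨0x3c0030000, false, true, true, -1, -4⟩)
 (.leaf ⟨0x780600000, false, false, true, -3, -4⟩)
)) (.node 398 (.node 397 (.leaf ⟨0x1800780000000, false, false, false, -3, -4⟩)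
 (.leaf ⟨0xf00c00000, false, false, true, -2, -4⟩)
) (.node 399 (.leaf ⟨0x1e00180000000, false, true, true, 1, -3⟩)
 (.leaf ⟨0x780600000000000000, false, false, true, -6, -1⟩)
))))))))) (.node 600 (.node 500 (.node 450 (.node 425 (.node 412 (.node 406 (.node 403 (.node 401 (.leaf ⟨0x780600000000, false, false, true, -4, -3⟩)
 (.node 402 (.leaf ⟨0x1000800400600200000000, true, false, true, -2, 0⟩)
 (.leaf ⟨0x18078000, false, true, false, -3, -5⟩)
)) (.node 404 (.leaf ⟨0x6001e0000, false, false, false, -4, -5⟩)
 (.node 405 (.leaf ⟨0xf00c00000000, false, false, true, -3, -3⟩)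
 (.leaf ⟨0x8004002001800400000000000, true, true, true, 0, 1⟩)
))) (.node 409 (.node 407 (.leaf ⟨0xf000c0000000000, false, true, true, -1, -2⟩)
 (.node 408 (.leaf ⟨0x1e00180000000000, false, true, true, 0, -2⟩)
 (.leaf ⟨0x300f00000000000000, false, true, false, -1, -2⟩)
)) (.node 410 (.leaf ⟨0x601e00000000000000, false, true, false, 0, -2⟩)
 (.node 411 (.leaf ⟨0x3000f00000000000000, false, false, false, -4, -2⟩)
 (.leaf ⟨0x6001e00000000000000, false, false, false, -3, -2⟩)
)))) (.node 418 (.node 415 (.node 413 (.leaf ⟨0x18007800000000000, false, false, false, 0, -3⟩)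
 (.node 414 (.leaf ⟨0x7806000000000, false, false, true, 0, -3⟩)
 (.leaf ⟨0x10008004006002000000, true, false, true, 3, -1⟩)
)) (.node 416 (.leaf ⟨0x800c004002001000000, true, true, false, 3, -5⟩)
 (.node 417 (.leaf ⟨0x10008004003000800000, true, true, true, 3, -1⟩)
 (.leaf ⟨0xc03c00000000, false, true, false, 3, -4⟩)
))) (.node 421 (.node 419 (.leaf ⟨0xc003c00000000, false, false, false, 0, -4⟩)
 (.node 420 (.leaf ⟨0x10018008004002000000000, true, true, false, 3, -4⟩)
 (.leaf ⟨0x100080040030008000000000000000000, true, true, true, 3, 3⟩)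
)) (.node 423 (.node 422 (.leaf ⟨0x20018004002001000000000, true, false, false, 2, -4⟩)
 (.leaf ⟨0x7806000000000000000, false, false, true, -2, -1⟩)
) (.node 424 (.leaf ⟨0x3c03000000000000000, false, false, true, -3, -1⟩)
 (.leaf ⟨0x300f000000000000000, false, true, false, 3, -2⟩)
))))) (.node 437 (.node 431 (.node 428 (.node 426 (.leaf ⟨0x100080040030008000000000000000, true, true, true, 4, 2⟩)
 (.node 427 (.leaf ⟨0x1000800400600200, true, false, true, 0, -2⟩)
 (.leaf ⟨0x4003000800400200000, true, false, false, 0, -5⟩)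
)) (.node 429 (.leaf ⟨0x8004002003001000000000000, true, false, true, 0, 1⟩)
 (.node 430 (.leaf ⟨0x400200100180080000000000000000000000000, true, false, true, 3, 5⟩)
 (.leaf ⟨0x3c003000000000000000, false, true, true, 4, -1⟩)
))) (.node 434 (.node 432 (.leaf ⟨0x3000f000000000000000, false, false, false, 0, -2⟩)
 (.node 433 (.leaf ⟨0x1e001800000000000000, false, true, true, 3, -1⟩)
 (.leaf ⟨0x7806000000000000, false, false, true, -1, -2⟩)
)) (.node 435 (.leaf ⟨0xf00c000000000000, false, false, true, 0, -2⟩)
 (.node 436 (.leaf ⟨0xc003c00000000000000, false, false, false, -2, -2⟩)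
 (.leaf ⟨0x601e000000000000000, false, true, false, 4, -2⟩)
)))) (.node 443 (.node 440 (.node 438 (.leaf ⟨0x1807800000000000, false, true, false, 3, -3⟩)
 (.node 439 (.leaf ⟨0x3c00300000000000, false, true, true, 1, -2⟩)
 (.leaf ⟨0xc03c00000000000000, false, true, false, 1, -2⟩)
)) (.node 441 (.leaf ⟨0x18007800000000000000, false, false, false, -1, -2⟩)
 (.node 442 (.leaf ⟨0x40030008004002000000000000, true, false, false, 2, -3⟩)
 (.leaf ⟨0x1807800000000000000, false, true, false, 2, -2⟩)
))) (.node 446 (.node 444 (.leaf ⟨0x10008004006002000000000, true, false, true, 2, 0⟩)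
 (.node 445 (.leaf ⟨0x8004002003001000000, true, false, true, 2, -1⟩)
 (.leaf ⟨0x4002001001800800000000000000, true, false, true, -2, 2⟩)
)) (.node 448 (.node 447 (.leaf ⟨0x1e01800000000000000, false, false, true, -4, -1⟩)
 (.leaf ⟨0x3000f00000000000, false, false, false, -3, -3⟩)
) (.node 449 (.leaf ⟨0x300f0000000000, false, true, false, -4, -3⟩)
 (.leaf ⟨0xf000c0000000000000, false, true, true, -2, -1⟩)
)))))) (.node 475 (.node 462 (.node 456 (.node 453 (.node 451 (.leaf ⟨0xf000c000000, false, true, true, -4, -3⟩)
 (.node 452 (.leaf ⟨0x100080040030008000000, true, true, true, -6, 0⟩)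
 (.leaf ⟨0x1000c0020010008000000, true, false, false, -7, -4⟩)
)) (.node 454 (.leaf ⟨0x200180040020010000000000, true, false, false, -7, -3⟩)
 (.node 455 (.leaf ⟨0x200100080060010000000000, true, true, true, -6, 1⟩)
 (.leaf ⟨0x100080040060020000000000, true, false, true, -7, 1⟩)
))) (.node 459 (.node 457 (.leaf ⟨0x1000c002001000800000000000000000, true, false, false, -2, -1⟩)
 (.node 458 (.leaf ⟨0x601e00000000000, false, true, false, 1, -3⟩)
 (.leaf ⟨0x2001000800c004000000000000, true, false, true, 2, 1⟩)
)) (.node 460 (.leaf ⟨0x40020010018008000000000000000, true, false, true, 2, 2⟩)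
 (.node 461 (.leaf ⟨0x20010008006001000000000000, true, true, true, 2, 1⟩)
 (.leaf ⟨0x4002001000c002000000000000000, true, true, true, 2, 2⟩)
)))) (.node 468 (.node 465 (.node 463 (.leaf ⟨0x800c0040020010000000, true, true, false, -6, -4⟩)
 (.node 464 (.leaf ⟨0x1000800400300080000000000000000000, true, true, true, -6, 4⟩)
 (.leaf ⟨0x800c00400200100000000000000000000, true, true, false, -6, 0⟩)
)) (.node 466 (.leaf ⟨0x400600200100080000000000000000, true, true, false, -6, -1⟩)
 (.node 467 (.leaf ⟨0x20030010008004, true, true, false, -6, -6⟩)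
 (.leaf ⟨0x40060020010008000, true, true, false, -6, -5⟩)
))) (.node 471 (.node 469 (.leaf ⟨0x80040020030010000000, true, false, true, -7, 0⟩)
 (.node 470 (.leaf ⟨0xf00c000000000000000000000000000, false, false, true, -5, 3⟩)
 (.leaf ⟨0xf000c00000000000000000000000000, false, true, true, -2, 3⟩)
)) (.node 473 (.node 472 (.leaf ⟨0x7800600000000000000000000000000, false, true, true, -3, 3⟩)
 (.leaf ⟨0x180780000000000000000000, false, true, false, -4, 0⟩)
) (.node 474 (.leaf ⟨0x3c00300000000000000000000000000, false, true, true, -4, 3⟩)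
 (.leaf ⟨0xc03c00000000000000000000000000000, false, true, false, -4, 3⟩)
))))) (.node 487 (.node 481 (.node 478 (.node 476 (.leaf ⟨0xc003c00000000000000000000000000000, false, false, false, -7, 3⟩)
 (.node 477 (.leaf ⟨0x78006000000000000000000000000000, false, true, true, 1, 3⟩)
 (.leaf ⟨0x2001000800c004000000000000000000000, true, false, true, -1, 4⟩)
)) (.node 479 (.leaf ⟨0x800400200300100000000000000000000, true, false, true, -7, 4⟩)
 (.node 480 (.leaf ⟨0x1000800400600200000000000000000000000, true, false, true, -7, 5⟩)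
 (.leaf ⟨0xc03c00000000000000000000, false, true, false, -1, 0⟩)
))) (.node 484 (.node 482 (.leaf ⟨0x3c00300000000000000000, false, true, true, -1, 0⟩)
 (.node 483 (.leaf ⟨0x1807800000000000000000000, false, true, false, 0, 0⟩)
 (.leaf ⟨0xc003c00000000000000000000, false, false, false, -4, 0⟩)
)) (.node 485 (.leaf ⟨0x7800600000000000000000, false, true, true, 0, 0⟩)
 (.node 486 (.leaf ⟨0x18007800000000000000000000, false, false, false, -3, 0⟩)
 (.leaf ⟨0x3000f000000000000000000000000000, false, false, false, -4, 2⟩)
)))) (.node 493 (.node 490 (.node 488 (.leaf ⟨0x18078000000, false, true, false, -4, -4⟩)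
 (.node 489 (.leaf ⟨0x40020010018008000, true, false, true, -7, -1⟩)
 (.leaf ⟨0x78060000, false, false, true, -7, -4⟩)
)) (.node 491 (.leaf ⟨0x3000f00000000000000000, false, false, false, -5, -1⟩)
 (.node 492 (.leaf ⟨0x6001e00000000000000000, false, false, false, -4, -1⟩)
 (.leaf ⟨0x3c03000000000000000000000, false, false, true, -5, 1⟩)
))) (.node 496 (.node 494 (.leaf ⟨0x780060000000000000, false, true, true, -3, -1⟩)
 (.node 495 (.leaf ⟨0x2001800400200100000000, true, false, false, -2, -4⟩)
 (.leaf ⟨0x8004002003001000000000000000000, true, false, true, -2, 3⟩)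
)) (.node 498 (.node 497 (.leaf ⟨0x10008004006002000000000000000000000, true, false, true, -2, 4⟩)
 (.leaf ⟨0x7806000000000000000000000, false, false, true, -4, 1⟩)
) (.node 499 (.leaf ⟨0x3c003000000000000000000000, false, true, true, 2, 1⟩)
 (.leaf ⟨0x4003000800400200000000000, true, false, false, -2, -3⟩)
))))))) (.node 550 (.node 525 (.node 512 (.node 506 (.node 503 (.node 501 (.leaf ⟨0x8004002001800400000000000000, true, true, true, -1, 2⟩)
 (.node 502 (.leaf ⟨0x10008004003000800000000000000000, true, true, true, -1, 3⟩)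
 (.leaf ⟨0x3c00300000000, false, true, true, 2, -3⟩)
)) (.node 504 (.leaf ⟨0x400600200100080, true, true, false, -1, -6⟩)
 (.node 505 (.leaf ⟨0x1e01800000000, false, false, true, -2, -3⟩)
 (.leaf ⟨0x780600, false, false, true, -2, -5⟩)
))) (.node 509 (.node 507 (.leaf ⟨0x3c0300, false, false, true, -3, -5⟩)
 (.node 508 (.leaf ⟨0xc003c0000, false, false, false, -3, -5⟩)
 (.leaf ⟨0x40060020010008000000000000000000, true, true, false, 2, -1⟩)
)) (.node 510 (.leaf ⟨0x80040020018004000000000000000000000, true, true, true, 1, 4⟩)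
 (.node 511 (.leaf ⟨0xf00c00000000000, false, false, true, -4, -2⟩)
 (.leaf ⟨0x1e01800000000000, false, false, true, -3, -2⟩)
)))) (.node 518 (.node 515 (.node 513 (.leaf ⟨0x400200100180080000000000000000, true, false, true, -7, 3⟩)
 (.node 514 (.leaf ⟨0x2001000800c0040000000000000, true, false, true, -7, 2⟩)
 (.leaf ⟨0x2001000800600100000000000000000000000, true, true, true, -6, 5⟩)
)) (.node 516 (.leaf ⟨0x80060010008004000, true, false, false, -7, -5⟩)
 (.node 517 (.leaf ⟨0x3c03000000000000, false, false, true, -2, -2⟩)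
 (.leaf ⟨0x4002001001800800000000000, true, false, true, -1, 1⟩)
))) (.node 521 (.node 519 (.leaf ⟨0x4006002001000800000000000000, true, true, false, -1, -2⟩)
 (.node 520 (.leaf ⟨0x20030010008004000000000000000, true, true, false, 2, -2⟩)
 (.leaf ⟨0x78006000000000000000000000, false, true, true, 3, 1⟩)
)) (.node 523 (.node 522 (.leaf ⟨0xf000c00000000000, false, true, true, 3, -2⟩)
 (.leaf ⟨0x2001000800c00400000000000, true, false, true, -2, 1⟩)
) (.node 524 (.leaf ⟨0x800c00400200100000, true, true, false, -1, -5⟩)
 (.leaf ⟨0x1001800800400200000000, true, true, false, -1, -4⟩)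
))))) (.node 537 (.node 531 (.node 528 (.node 526 (.leaf ⟨0x8006001000800400000000000, true, false, false, -1, -3⟩)
 (.node 527 (.leaf ⟨0x2003001000800400000000000, true, true, false, -1, -3⟩)
 (.leaf ⟨0xf00c00000000000000, false, false, true, -5, -1⟩)
)) (.node 529 (.leaf ⟨0x10018008004002000000000000000000000, true, true, false, -1, 0⟩)
 (.node 530 (.leaf ⟨0x20010008006001000000000000000000000, true, true, true, -1, 4⟩)
 (.leaf ⟨0x1e001800000000000, false, true, true, 4, -2⟩)
))) (.node 534 (.node 532 (.leaf ⟨0x4002001000c00200000000000, true, true, true, -1, 1⟩)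
 (.node 533 (.leaf ⟨0x3c0030, false, true, true, 0, -5⟩)
 (.leaf ⟨0x780060, false, true, true, 1, -5⟩)
)) (.node 535 (.leaf ⟨0x1800780000, false, false, false, -2, -5⟩)
 (.node 536 (.leaf ⟨0x3000f00000, false, false, false, -1, -5⟩)
 (.leaf ⟨0xf000c0, false, true, true, 2, -5⟩)
)))) (.node 543 (.node 540 (.node 538 (.leaf ⟨0x1000800400300080, true, true, true, 0, -2⟩)
 (.node 539 (.leaf ⟨0x601e00000, false, true, false, 3, -5⟩)
 (.leaf ⟨0x300f00000, false, true, false, 2, -5⟩)
)) (.node 541 (.leaf ⟨0x4002001000c00200, true, true, true, 2, -2⟩)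
 (.node 542 (.leaf ⟨0x8004002001800400000, true, true, true, 2, -1⟩)
 (.leaf ⟨0x4002001001800800, true, false, true, 2, -2⟩)
))) (.node 546 (.node 544 (.leaf ⟨0x1e01800000, false, false, true, -1, -4⟩)
 (.node 545 (.leaf ⟨0x1e00180000, false, true, true, 2, -4⟩)
 (.leaf ⟨0x3c00300000, false, true, true, 3, -4⟩)
)) (.node 548 (.node 547 (.leaf ⟨0x800400200300100, true, false, true, -1, -2⟩)
 (.leaf ⟨0x800400200180040, true, true, true, -1, -2⟩)
) (.node 549 (.leaf ⟨0x7800600000000000, false, true, true, 2, -2⟩)
 (.leaf ⟨0x800c00400200100, true, true, false, 0, -6⟩)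
)))))) (.node 575 (.node 562 (.node 556 (.node 553 (.node 551 (.leaf ⟨0x3c03000000, false, false, true, 0, -4⟩)
 (.node 552 (.leaf ⟨0x6001e00000000, false, false, false, -1, -4⟩)
 (.leaf ⟨0x1000c00200100080000, true, false, false, -2, -5⟩)
)) (.node 554 (.leaf ⟨0x800600100080040, true, false, false, -2, -6⟩)
 (.node 555 (.leaf ⟨0x601e00000000, false, true, false, 2, -4⟩)
 (.leaf ⟨0x1000800400600200000, true, false, true, -1, -1⟩)
))) (.node 559 (.node 557 (.leaf ⟨0x1001800800400200000, true, true, false, 0, -5⟩)
 (.node 558 (.leaf ⟨0x1e0180, false, false, true, -4, -5⟩)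
 (.leaf ⟨0xf00c00, false, false, true, -1, -5⟩)
)) (.node 560 (.leaf ⟨0x1e01800, false, false, true, 0, -5⟩)
 (.node 561 (.leaf ⟨0x6001e00000, false, false, false, 0, -5⟩)
 (.leaf ⟨0x1e0018, false, true, true, -1, -5⟩)
)))) (.node 568 (.node 565 (.node 563 (.leaf ⟨0x1e00180, false, true, true, 3, -5⟩)
 (.node 564 (.leaf ⟨0x1001800800400200, true, true, false, 1, -6⟩)
 (.leaf ⟨0x2001000800c00400, true, false, true, 1, -2⟩)
)) (.node 566 (.leaf ⟨0x4002001001800800000, true, false, true, 1, -1⟩)
 (.node 567 (.leaf ⟨0x2001000800600100, true, true, true, 1, -2⟩)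
 (.leaf ⟨0x8006001000800400000, true, false, false, 1, -5⟩)
))) (.node 571 (.node 569 (.leaf ⟨0x2001800400200100, true, false, false, 0, -6⟩)
 (.node 570 (.leaf ⟨0x7800600000, false, true, true, 4, -4⟩)
 (.leaf ⟨0x1000c00200100080, true, false, false, -1, -6⟩)
)) (.node 573 (.node 572 (.leaf ⟨0x1000800400300080000, true, true, true, -1, -1⟩)
 (.leaf ⟨0xc03c0, false, true, false, 1, -6⟩)
) (.node 574 (.leaf ⟨0xc03c00000000000, false, true, false, 2, -3⟩)
 (.leaf ⟨0x4002001000c00200000, true, true, true, 1, -1⟩)
))))) (.node 587 (.node 581 (.node 578 (.node 576 (.leaf ⟨0xc03c00000, false, true, false, 4, -5⟩)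
 (.node 577 (.leaf ⟨0x1800780000000000, false, false, false, -4, -3⟩)
 (.leaf ⟨0x3000f00000000, false, false, false, -2, -4⟩)
)) (.node 579 (.leaf ⟨0x6001e00000000000, false, false, false, -2, -3⟩)
 (.node 580 (.leaf ⟨0x2001000800c00400000000, true, false, true, -1, 0⟩)
 (.leaf ⟨0x80060010008004000000000000000, true, false, false, 2, -2⟩)
))) (.node 584 (.node 582 (.leaf ⟨0xc003c0000000000, false, false, false, -5, -3⟩)
 (.node 583 (.leaf ⟨0x78060000000, false, false, true, -8, -3⟩)
 (.leaf ⟨0x3c030000, false, false, true, -8, -4⟩)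
)) (.node 585 (.leaf ⟨0x2001000800600100000000, true, true, true, -1, 0⟩)
 (.node 586 (.leaf ⟨0x1807800000000, false, true, false, 4, -4⟩)
 (.leaf ⟨0x300f00, false, true, false, 3, -6⟩)
)))) (.node 593 (.node 590 (.node 588 (.leaf ⟨0x601e00, false, true, false, 4, -6⟩)
 (.node 589 (.leaf ⟨0x2001000800c004000000000000000000000000, true, false, true, -2, 5⟩)
 (.leaf ⟨0x40020010018008000000000000000000000000000, true, false, true, -2, 6⟩)
)) (.node 591 (.leaf ⟨0x800c004002001000000000000000000, true, true, false, -1, -1⟩)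
 (.node 592 (.leaf ⟨0x80040020018004000000000000000000000000000, true, true, true, -1, 6⟩)
 (.leaf ⟨0x300f00000000000000000000000, false, true, false, -4, 1⟩)
))) (.node 596 (.node 594 (.leaf ⟨0x200300100080040000000000000000, true, true, false, -7, -1⟩)
 (.node 595 (.leaf ⟨0x80040020018004000000, true, true, true, -7, 0⟩)
 (.leaf ⟨0x100080040030008000000000, true, true, true, -7, 1⟩)
)) (.node 598 (.node 597 (.leaf ⟨0x800c0040020010000000000, true, true, false, -7, -3⟩)
 (.leaf ⟨0x100180080040020000000000000, true, true, false, -7, -2⟩)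
) (.node 599 (.leaf ⟨0x200100080060010000000000000, true, true, true, -7, 2⟩)
 (.leaf ⟨0x400300080040020000000000000, true, false, false, -7, -2⟩)
)))))))) (.node 700 (.node 650 (.node 625 (.node 612 (.node 606 (.node 603 (.node 601 (.leaf ⟨0x800600100080040000000000000000, true, false, false, -7, -1⟩)
 (.node 602 (.leaf ⟨0x3c0030000000000000, false, true, true, -4, -1⟩)
 (.leaf ⟨0x3c030000000000000000000000000000000, false, false, true, -4, 4⟩)
)) (.node 604 (.leaf ⟨0x4002001000c0020000000000000000, true, true, true, -7, 3⟩)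
 (.node 605 (.leaf ⟨0x1000c00200100080000000000000000000, true, false, false, -7, 0⟩)
 (.leaf ⟨0xf000c0000000000000000000, false, true, true, -4, 1⟩)
))) (.node 609 (.node 607 (.leaf ⟨0x180078000000000000000000000000000000, false, false, false, -2, 3⟩)
 (.node 608 (.leaf ⟨0x3000f0000000000000000000000000000000, false, false, false, -1, 3⟩)
 (.leaf ⟨0xf000c000000000000000000000000000, false, true, true, 2, 3⟩)
)) (.node 610 (.leaf ⟨0xf00c0000000000000000000000000000, false, false, true, -1, 3⟩)
 (.node 611 (.leaf ⟨0x40030008004002000000000000000000000, true, false, false, -1, 0⟩)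
 (.leaf ⟨0x18007800000000000000000000000000000000, false, false, false, -7, 4⟩)
)))) (.node 618 (.node 615 (.node 613 (.leaf ⟨0xf00c0000000000000000000000000000000, false, false, true, -2, 4⟩)
 (.node 614 (.leaf ⟨0x3000f0000000000000000000000000000000000, false, false, false, -2, 4⟩)
 (.leaf ⟨0x300f0000000000000000000000000000000000, false, true, false, 1, 4⟩)
)) (.node 616 (.leaf ⟨0x1e0180000000000000000000000000000000, false, false, true, -1, 4⟩)
 (.node 617 (.leaf ⟨0x3c0300000000000000000000000000000000, false, false, true, 0, 4⟩)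
 (.leaf ⟨0x6001e0000000000000000000000000000000000, false, false, false, -1, 4⟩)
))) (.node 621 (.node 619 (.leaf ⟨0xc003c0000000000000000000000000000000000, false, false, false, 0, 4⟩)
 (.node 620 (.leaf ⟨0x601e0000000000000000000000000000000000, false, true, false, 2, 4⟩)
 (.leaf ⟨0xc03c0000000000000000000000000000000000, false, true, false, 3, 4⟩)
)) (.node 623 (.node 622 (.leaf ⟨0x4006002001000800000000000, true, true, false, 0, -3⟩)
 (.leaf ⟨0x300f000000000000000000, false, true, false, 2, -1⟩)
) (.node 624 (.leaf ⟨0xf000c00000000000000, false, true, true, 2, -1⟩)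
 (.leaf ⟨0x601e000000000000000000, false, true, false, 3, -1⟩)
))))) (.node 637 (.node 631 (.node 628 (.node 626 (.leaf ⟨0x1000c0020010008000000000000000000, true, false, false, 2, -1⟩)
 (.node 627 (.leaf ⟨0x7806000000000000000000, false, false, true, -3, 0⟩)
 (.leaf ⟨0x78060000000000000000000000000000, false, false, true, -2, 3⟩)
)) (.node 629 (.leaf ⟨0x2003001000800400000000, true, true, false, 0, -4⟩)
 (.node 630 (.leaf ⟨0x2003001000800400, true, true, false, 2, -6⟩)
 (.leaf ⟨0x10008004003000800000000, true, true, true, 2, 0⟩)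
))) (.node 634 (.node 632 (.leaf ⟨0x4006002001000800000, true, true, false, 2, -5⟩)
 (.node 633 (.leaf ⟨0x3c03000000000, false, false, true, -1, -3⟩)
 (.leaf ⟨0x40020010018008000000000000000000000000, true, false, true, -1, 5⟩)
)) (.node 635 (.leaf ⟨0x20010008006001000000000000000000, true, true, true, 0, 3⟩)
 (.node 636 (.leaf ⟨0x1e018000000000000000000000000000, false, false, true, -4, 3⟩)
 (.leaf ⟨0x4002001000c002000000000000000000000000, true, true, true, -1, 5⟩)
)))) (.node 643 (.node 640 (.node 638 (.leaf ⟨0x300f0000000000000000000000000000, false, true, false, 3, 2⟩)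
 (.node 639 (.leaf ⟨0x18078000000000000000000000000000, false, true, false, 2, 2⟩)
 (.leaf ⟨0x3c03000000000000000000, false, false, true, -4, 0⟩)
)) (.node 641 (.leaf ⟨0x1e0018000000000000000000000000000000000, false, true, true, 1, 5⟩)
 (.node 642 (.leaf ⟨0x6001e0000000000000000000000000000000000000, false, false, false, -2, 5⟩)
 (.leaf ⟨0xc003c0000000000000000000000000000000000000, false, false, false, -1, 5⟩)
))) (.node 646 (.node 644 (.leaf ⟨0x4002001000c0020000000000000000000000000, true, true, true, 3, 5⟩)
 (.node 645 (.leaf ⟨0x18078000000000000000000000000000000000000, false, true, false, -1, 5⟩)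
 (.leaf ⟨0x300f0000000000000000000000000000000000000, false, true, false, 0, 5⟩)
)) (.node 648 (.node 647 (.leaf ⟨0x180078000000000000000000000000000000000000, false, false, false, -4, 5⟩)
 (.leaf ⟨0x3000f0000000000000000000000000000000000000, false, false, false, -3, 5⟩)
) (.node 649 (.leaf ⟨0x601e0000000000000000000000000000000000000, false, true, false, 1, 5⟩)
 (.leaf ⟨0x1000c00200100080000000000000000000000000000, true, false, false, 3, 2⟩)
)))))) (.node 675 (.node 662 (.node 656 (.node 653 (.node 651 (.leaf ⟨0x400600200100080000000000000000000000000000, true, true, false, 3, 2⟩)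
 (.node 652 (.leaf ⟨0x601e0000000000000000000000000000, false, true, false, 4, 2⟩)
 (.leaf ⟨0xc003c000000000000000000000000000000000000, false, false, false, -5, 5⟩)
)) (.node 654 (.leaf ⟨0xc03c0000000000000000000000000000000000000, false, true, false, 2, 5⟩)
 (.node 655 (.leaf ⟨0x100080040060020000000000000000000000000000, true, false, true, 0, 6⟩)
 (.leaf ⟨0x3c0300000000000000000000000000000000000, false, false, true, -1, 5⟩)
))) (.node 659 (.node 657 (.leaf ⟨0x780600000000000000000000000000000000000, false, false, true, 0, 5⟩)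
 (.node 658 (.leaf ⟨0x1800780000000000000000000000000000000000000, false, false, false, 0, 5⟩)
 (.leaf ⟨0x200100080060010000000000000000000000000, true, true, true, 2, 5⟩)
)) (.node 660 (.leaf ⟨0x200300100080040000000000000000000000000000, true, true, false, 2, 2⟩)
 (.node 661 (.leaf ⟨0x6001e000000000000000000000000000000000000, false, false, false, -6, 5⟩)
 (.leaf ⟨0x3c0030000000000000000000000000000, false, true, true, 4, 3⟩)
)))) (.node 668 (.node 665 (.node 663 (.leaf ⟨0x400200100180080000000000000000000000000000, true, false, true, 2, 6⟩)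
 (.node 664 (.leaf ⟨0x180780000000000000000000000000000000000000, false, true, false, 3, 5⟩)
 (.leaf ⟨0xc003c000000000000000000000000000, false, false, false, -2, 2⟩)
)) (.node 666 (.leaf ⟨0x2001000800c0040000000000000000000000000, true, false, true, 2, 5⟩)
 (.node 667 (.leaf ⟨0x780060000000000000000000000000000000000000, false, true, true, 2, 6⟩)
 (.leaf ⟨0x1e0180000000000000000000000000000000000000, false, false, true, -3, 6⟩)
))) (.node 671 (.node 669 (.leaf ⟨0xf00c0000000000000000000000000000000000000, false, false, true, -4, 6⟩)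
 (.node 670 (.leaf ⟨0x78060000000000000000000000000000000000000, false, false, true, -5, 6⟩)
 (.leaf ⟨0x4002001000c0020000000000000000000000000000, true, true, true, 2, 6⟩)
)) (.node 673 (.node 672 (.leaf ⟨0x3c0030000000000000000000000000000000000, false, true, true, 2, 5⟩)
 (.leaf ⟨0x6001e000000000000000000000000000, false, false, false, -3, 2⟩)
) (.node 674 (.leaf ⟨0x100080040030008000000000000000000000000000, true, true, true, 0, 6⟩)
 (.leaf ⟨0x3c0030000000000000000000000000000000, false, true, true, 3, 4⟩)
))))) (.node 687 (.node 681 (.node 678 (.node 676 (.leaf ⟨0x100180080040020000000000000000000000000, true, true, false, 2, 1⟩)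
 (.node 677 (.leaf ⟨0x800600100080040000000000000000000000000000, true, false, false, 2, 2⟩)
 (.leaf ⟨0x800400200180040000000000000000000000000000, true, true, true, 3, 6⟩)
)) (.node 679 (.leaf ⟨0x800400200300100000000000000000000000000000, true, false, true, 3, 6⟩)
 (.node 680 (.leaf ⟨0xf00c0000000000000000000000000000000000, false, false, true, -3, 5⟩)
 (.leaf ⟨0x4003000800400200000000000000000000000000, true, false, false, -7, 2⟩)
))) (.node 684 (.node 682 (.leaf ⟨0x2001000800c00400000000000000000000000000, true, false, true, -7, 6⟩)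
 (.node 683 (.leaf ⟨0x300f000000000000000000000000000000000000, false, true, false, -4, 5⟩)
 (.leaf ⟨0x2001800400200100000000000000000000000, true, false, false, -7, 1⟩)
)) (.node 685 (.leaf ⟨0x4002001000c00200000000000000000000000000, true, true, true, -6, 6⟩)
 (.node 686 (.leaf ⟨0xf000c00000000000000000000000000000000, false, true, true, -4, 5⟩)
 (.leaf ⟨0x1000800400300080000000000000000000000, true, true, true, -7, 5⟩)
)))) (.node 693 (.node 690 (.node 688 (.leaf ⟨0x3000f000000000000000000000000000000000000, false, false, false, -7, 5⟩)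
 (.node 689 (.leaf ⟨0xf000c000000000000000000000000000000000000, false, true, true, -1, 6⟩)
 (.leaf ⟨0x400600200100080000000000000000000, true, true, false, -7, 0⟩)
)) (.node 691 (.leaf ⟨0x800400200180040000000000000000000, true, true, true, -7, 4⟩)
 (.node 692 (.leaf ⟨0x800c00400200100000000000000000000000, true, true, false, -7, 1⟩)
 (.leaf ⟨0x200180040020010000000000000, true, false, false, -8, -2⟩)
))) (.node 696 (.node 694 (.leaf ⟨0x1001800800400200000000000000000000000000, true, true, false, -7, 2⟩)
 (.node 695 (.leaf ⟨0x7800600000000000000000000000000000, false, true, true, -4, 4⟩)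
 (.leaf ⟨0x1e0018000000000000000000000000000000000000, false, true, true, 0, 6⟩)
)) (.node 698 (.node 697 (.leaf ⟨0x2001000800600100000000000000000000000000, true, true, true, -7, 6⟩)
 (.leaf ⟨0x18007800000000000000000000000000000000000, false, false, false, -8, 5⟩)
) (.node 699 (.leaf ⟨0x400300080040020000000000000000, true, false, false, -8, -1⟩)
 (.leaf ⟨0x300f0000000000000000000000000000000, false, true, false, 2, 3⟩)
))))))) (.node 750 (.node 725 (.node 712 (.node 706 (.node 703 (.node 701 (.leaf ⟨0x100180080040020000000000000000000000000000, true, true, false, 1, 2⟩)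
 (.node 702 (.leaf ⟨0x100080040030008000000000000000000000000, true, true, true, 1, 5⟩)
 (.leaf ⟨0x80040020018004000000000000000000000000, true, true, true, 0, 5⟩)
)) (.node 704 (.leaf ⟨0x6001e00000000000000000000000000000, false, false, false, -8, 3⟩)
 (.node 705 (.leaf ⟨0x1000c0020010008000000000, true, false, false, -8, -3⟩)
 (.leaf ⟨0x7806000000000000000000000000000000000, false, false, true, -8, 5⟩)
))) (.node 709 (.node 707 (.leaf ⟨0x1000800400600200000000000000000000000000, true, false, true, -8, 6⟩)
 (.node 708 (.leaf ⟨0xf00c000000000000000000000000000000000000, false, false, true, -8, 6⟩)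
 (.leaf ⟨0x800400200300100000000000000000000000, true, false, true, -8, 5⟩)
)) (.node 710 (.leaf ⟨0x800600100080040000000000000000000, true, false, false, -8, 0⟩)
 (.node 711 (.leaf ⟨0x1e0018000000000000000000000000000000, false, true, true, 2, 4⟩)
 (.leaf ⟨0x400300080040020000000000000000000000000000, true, false, false, 1, 2⟩)
)))) (.node 718 (.node 715 (.node 713 (.leaf ⟨0xf000c0000000000000000000000000000000000, false, true, true, 4, 5⟩)
 (.node 714 (.leaf ⟨0x180780000000000000000000000000000000000, false, true, false, 4, 4⟩)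
 (.leaf ⟨0x780060000000000000000000000000000000, false, true, true, 4, 4⟩)
)) (.node 716 (.leaf ⟨0x1e0180000000000000000000000000000000000, false, false, true, -2, 5⟩)
 (.node 717 (.leaf ⟨0x18007800000000000000000000000, false, false, false, -4, 1⟩)
 (.leaf ⟨0x780060000000000000000000000000000000000, false, true, true, 3, 5⟩)
))) (.node 721 (.node 719 (.leaf ⟨0x800c0040020010000000000000000000000, true, true, false, 2, 0⟩)
 (.node 720 (.leaf ⟨0x4002001000c002000000000000000000000, true, true, true, 0, 4⟩)
 (.leaf ⟨0x1000c002001000800000000000000, true, false, false, -1, -2⟩)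
)) (.node 723 (.node 722 (.leaf ⟨0x2001000800c0040000000000000000000000000000, true, false, true, 1, 6⟩)
 (.leaf ⟨0x100080040060020000000000000000000000000, true, false, true, 1, 5⟩)
) (.node 724 (.leaf ⟨0xc03c0000000000000000000000000000000, false, true, false, 4, 3⟩)
 (.leaf ⟨0x4003000800400200000000, true, false, false, -1, -4⟩)
))))) (.node 737 (.node 731 (.node 728 (.node 726 (.leaf ⟨0x4006002001000800000000, true, true, false, 1, -4⟩)
 (.node 727 (.leaf ⟨0x10008004006002000000000000000000, true, false, true, -1, 3⟩)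
 (.leaf ⟨0x8004002003001000000000000000, true, false, true, -1, 2⟩)
)) (.node 729 (.leaf ⟨0x8004002001800400, true, true, true, 3, -2⟩)
 (.node 730 (.leaf ⟨0x8004002003001000, true, false, true, 3, -2⟩)
 (.leaf ⟨0x4006002001000800, true, true, false, 3, -6⟩)
))) (.node 734 (.node 732 (.leaf ⟨0x1000c002001000800000, true, false, false, 2, -5⟩)
 (.node 733 (.leaf ⟨0x2003001000800400000, true, true, false, 1, -5⟩)
 (.leaf ⟨0x40030008004002, true, false, false, -7, -6⟩)
)) (.node 735 (.leaf ⟨0x2001800400200100000, true, false, false, -1, -5⟩)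
 (.node 736 (.leaf ⟨0xc003c00000000000, false, false, false, -1, -3⟩)
 (.leaf ⟨0x300f000000000000000000000, false, true, false, 1, 0⟩)
)))) (.node 743 (.node 740 (.node 738 (.leaf ⟨0xf000c00000000000000000, false, true, true, 1, 0⟩)
 (.node 739 (.leaf ⟨0x200180040020010000000000000000000000000, true, false, false, 1, 1⟩)
 (.leaf ⟨0x200100080060010000000000000000000000000000, true, true, true, 1, 6⟩)
)) (.node 741 (.leaf ⟨0x4002001000c002000000000000000000, true, true, true, 1, 3⟩)
 (.node 742 (.leaf ⟨0x80040020018004000000000000000000, true, true, true, 2, 3⟩)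
 (.leaf ⟨0x20030010008004000000000000000000, true, true, false, 1, -1⟩)
))) (.node 746 (.node 744 (.leaf ⟨0x10008004006002000000000000, true, false, true, 1, 1⟩)
 (.node 745 (.leaf ⟨0xc003c000000000000000000000, false, false, false, 0, 0⟩)
 (.leaf ⟨0x3c030000000000000000000, false, false, true, 0, 0⟩)
)) (.node 748 (.node 747 (.leaf ⟨0x78006000000000000000000, false, true, true, 4, 0⟩)
 (.leaf ⟨0x40030008004002000000000000000, true, false, false, 1, -2⟩)
) (.node 749 (.leaf ⟨0x8004002003001000000000, true, false, true, 1, 0⟩)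
 (.leaf ⟨0x20018004002001000000000000, true, false, false, 1, -3⟩)
)))))) (.node 775 (.node 762 (.node 756 (.node 753 (.node 751 (.leaf ⟨0xf000c000000000000000000000, false, true, true, 4, 1⟩)
 (.node 752 (.leaf ⟨0x10018008004002000000000000, true, true, false, 2, -3⟩)
 (.leaf ⟨0xc03c000000000000000000, false, true, false, 4, -1⟩)
)) (.node 754 (.leaf ⟨0x2001000800c004000000000000000, true, false, true, 1, 2⟩)
 (.node 755 (.leaf ⟨0xf00c000000000000000000, false, false, true, -2, 0⟩)
 (.leaf ⟨0x800c004002001000000000, true, true, false, 2, -4⟩)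
))) (.node 759 (.node 757 (.leaf ⟨0x3000f000000000000000000000, false, false, false, -2, 0⟩)
 (.node 758 (.leaf ⟨0x80060010008004000000000000000000, true, false, false, 1, -1⟩)
 (.leaf ⟨0x6001e000000000000000000000, false, false, false, -1, 0⟩)
)) (.node 760 (.leaf ⟨0x1e018000000000000000000, false, false, true, -1, 0⟩)
 (.node 761 (.leaf ⟨0x3c003000000000000000000, false, true, true, 3, 0⟩)
 (.leaf ⟨0x1000c0020010008000000000000000000000000000, true, false, false, -1, 2⟩)
)))) (.node 768 (.node 765 (.node 763 (.leaf ⟨0x40060020010008000000000000000000000000000, true, true, false, -1, 2⟩)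
 (.node 764 (.leaf ⟨0x7800600000000, false, true, true, 3, -3⟩)
 (.leaf ⟨0x8004002001800400000000, true, true, true, 1, 0⟩)
)) (.node 766 (.leaf ⟨0x80040020030010000000000000000000000000000, true, false, true, -1, 6⟩)
 (.node 767 (.leaf ⟨0x1e00180000000000000000000000000000000000000, false, true, true, 4, 6⟩)
 (.leaf ⟨0xf000c00000000, false, true, true, 4, -3⟩)
))) (.node 771 (.node 769 (.leaf ⟨0x100080040030008000000000000000000000, true, true, true, 2, 4⟩)
 (.node 770 (.leaf ⟨0x18007800000000000000000, false, false, false, -2, -1⟩)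
 (.leaf ⟨0xc003c00000000000000000, false, false, false, -3, -1⟩)
)) (.node 773 (.node 772 (.leaf ⟨0x1e001800000000000000000, false, true, true, 2, 0⟩)
 (.leaf ⟨0x2001000800c004000000000000000000, true, false, true, 0, 3⟩)
) (.node 774 (.leaf ⟨0x78006000, false, true, true, -4, -4⟩)
 (.leaf ⟨0x20010008006001000000000000000, true, true, true, 1, 2⟩)
))))) (.node 787 (.node 781 (.node 778 (.node 776 (.leaf ⟨0x8006001000800400000000, true, false, false, 0, -4⟩)
 (.node 777 (.leaf ⟨0x1000c002001000800000000000, true, false, false, 0, -3⟩)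
 (.leaf ⟨0x40020010018008000000000000000000000, true, false, true, 0, 4⟩)
)) (.node 779 (.leaf ⟨0x18078000000000000000000000, false, true, false, 4, 0⟩)
 (.node 780 (.leaf ⟨0x300f0, false, true, false, -1, -6⟩)
 (.leaf ⟨0x80040020030010000000000000000000000, true, false, true, 1, 4⟩)
))) (.node 784 (.node 782 (.leaf ⟨0x800c0040020010000000000000000000000000, true, true, false, 1, 1⟩)
 (.node 783 (.leaf ⟨0x1000c002001000800, true, false, false, 3, -6⟩)
 (.leaf ⟨0x300f000000000000, false, true, false, 4, -3⟩)
)) (.node 785 (.leaf ⟨0x10008004003000800000000000, true, true, true, 1, 1⟩)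
 (.node 786 (.leaf ⟨0x4003000800400200, true, false, false, 1, -6⟩)
 (.leaf ⟨0x800c004002001000000000000, true, true, false, 1, -3⟩)
)))) (.node 793 (.node 790 (.node 788 (.leaf ⟨0x4002001000c0020000000000000000000000, true, true, true, 4, 4⟩)
 (.node 789 (.leaf ⟨0xc03c000000000000000000000, false, true, false, 3, 0⟩)
 (.leaf ⟨0x1e018000000000000000000000, false, false, true, -2, 1⟩)
)) (.node 791 (.leaf ⟨0xf00c000000000000000000000, false, false, true, -3, 1⟩)
 (.node 792 (.leaf ⟨0x601e000000000000000000000, false, true, false, 2, 0⟩)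
 (.leaf ⟨0x40020010018008000000000000000000, true, false, true, 1, 3⟩)
))) (.node 796 (.node 794 (.leaf ⟨0x20018004002001000000000000000000, true, false, false, -1, -1⟩)
 (.node 795 (.leaf ⟨0x1000c0020010008000000000000000000000, true, false, false, 1, 0⟩)
 (.leaf ⟨0x10018008004002000000000000000, true, true, false, 1, -2⟩)
)) (.node 798 (.node 797 (.leaf ⟨0x40060020010008000000000000000000000, true, true, false, 1, 0⟩)
 (.leaf ⟨0x1000c002001000800000000, true, false, false, 1, -4⟩)
) (.node 799 (.leaf ⟨0x20030010008004000000000000000000000000, true, true, false, -1, 1⟩)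
 (.leaf ⟨0x80060010008004000000000000000000000000, true, false, false, -1, 1⟩)
))))))))))

def cert : Cert :=
  ⟨(.node 576 (.node 256 (.node 128 (.node 64 maskTree0 maskTree1) (.node 192 maskTree2 maskTree3)) (.node 384 (.node 320 maskTree4 maskTree5) (.node 448 maskTree6 (.node 512 maskTree7 maskTree8)))) (.node 896 (.node 704 (.node 640 maskTree9 maskTree10) (.node 768 maskTree11 (.node 832 maskTree12 maskTree13))) (.node 1024 (.node 960 maskTree14 maskTree15) (.node 1088 maskTree16 (.node 1152 maskTree17 maskTree18))))), (.node 576 (.node 256 (.node 128 (.node 64 edgeTree0 edgeTree1) (.node 192 edgeTree2 edgeTree3)) (.node 384 (.node 320 edgeTree4 edgeTree5) (.node 448 edgeTree6 (.node 512 edgeTree7 edgeTree8)))) (.node 896 (.node 704 (.node 640 edgeTree9 edgeTree10) (.node 768 edgeTree11 (.node 832 edgeTree12 edgeTree13))) (.node 1024 (.node 960 edgeTree14 edgeTree15) (.node 1088 edgeTree16 (.node 1152 edgeTree17 edgeTree18))))), copyTree⟩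

theorem copies_ok : cert.copies.every copyCheck = true := by decide +kernel

end Vale.Agent.P062.Snaky.Data
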